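import Mathlib
import Vale.Agent.Lib.P243.R3.Defs
open MeasureTheory Set
open scoped Pointwise

/-!
# P243, `r_3 > 1/3`, job J5 (backup copy by helper46): `Ahat` under affine maps and homotheties
-/

namespace Vale.Agent.Lib.P243.R3.H46

theorem M1d_image_add_segment (L : E3 ≃L[ℝ] E3) (v : E3) (K : Set E3) (w : E3) :
    aff L v '' K + segment ℝ (0 : E3) (L w) = aff L v '' (K + segment ℝ (0 : E3) w) := by
  ext z
  constructor
  · rintro ⟨_, ⟨x, hx, rfl⟩, s, hs, rfl⟩
    rw [segment_eq_image] at hs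
    obtain ⟨θ, hθ, rfl⟩ := hs
    refine ⟨x + θ • w, ⟨x, hx, θ • w, ?_, rfl⟩, ?_⟩
    · rw [segment_eq_image]
      exact ⟨θ, hθ, by simp⟩
    · simp only [aff, map_add, map_smul, smul_zero, zero_add]
      abel
  · rintro ⟨_, ⟨x, hx, s, hs, rfl⟩, rfl⟩
    rw [segment_eq_image] at hs
    obtain ⟨θ, hθ, rfl⟩ := hs
    refine ⟨aff L v x, ⟨x, hx, rfl⟩, θ • L w, ?_, ?_⟩
    · rw [segment_eq_image]
      exact ⟨θ, hθ, by simp⟩
    · simp only [aff, map_add, map_smul, smul_zero, zero_add]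
      abel

theorem M1d_volume_aff (L : E3 ≃L[ℝ] E3) (v : E3) (S : Set E3) :
    volume (aff L v '' S) = ENNReal.ofReal |LinearMap.det (L : E3 →ₗ[ℝ] E3)| * volume S := by
  have h1 : aff L v '' S = (fun y : E3 => y + v) '' ((L : E3 →ₗ[ℝ] E3) '' S) := by
    rw [Set.image_image]
    rfl
  rw [h1, Set.image_add_right, measure_preimage_add_right, Measure.addHaar_image_linearMap]

theorem M1d_Ahat_aff (L : E3 ≃L[ℝ] E3) (v : E3) (K : Set E3) (w : E3) :
    Ahat (aff L v '' K) (L w) = |LinearMap.det (L : E3 →ₗ[ℝ] E3)| * Ahat K w := by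
  unfold Ahat
  rw [M1d_image_add_segment, M1d_volume_aff, M1d_volume_aff, ENNReal.toReal_mul,
    ENNReal.toReal_mul, ENNReal.toReal_ofReal (abs_nonneg _)]
  ring

theorem M1e_image_add_segment (c : E3) (r : ℝ) (K : Set E3) (w : E3) :
    hom c r '' K + segment ℝ (0 : E3) (r • w) = hom c r '' (K + segment ℝ (0 : E3) w) := by
  ext z
  constructor
  · rintro ⟨_, ⟨x, hx, rfl⟩, s, hs, rfl⟩
    rw [segment_eq_image] at hs
    obtain ⟨θ, hθ, rfl⟩ := hs
    refine ⟨x + θ • w, ⟨x, hx, θ • w, ?_, rfl⟩, ?_⟩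
    · rw [segment_eq_image]
      exact ⟨θ, hθ, by simp⟩
    · simp only [hom, smul_zero, zero_add, smul_sub, smul_add]
      rw [smul_comm r θ w]
      abel
  · rintro ⟨_, ⟨x, hx, s, hs, rfl⟩, rfl⟩
    rw [segment_eq_image] at hs
    obtain ⟨θ, hθ, rfl⟩ := hs
    refine ⟨hom c r x, ⟨x, hx, rfl⟩, θ • r • w, ?_, ?_⟩
    · rw [segment_eq_image]
      exact ⟨θ, hθ, by simp⟩
    · simp only [hom, smul_zero, zero_add, smul_sub, smul_add]
      rw [smul_comm r θ w]
      abel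

theorem M1e_volume_hom (c : E3) {r : ℝ} (hr : 0 < r) (S : Set E3) :
    volume (hom c r '' S) = ENNReal.ofReal (r ^ 3) * volume S := by
  have h1 : hom c r '' S = (fun y : E3 => y + (c - r • c)) '' (r • S) := by
    rw [← Set.image_smul, Set.image_image]
    refine Set.image_congr' (fun x => ?_)
    unfold hom
    rw [smul_sub]
    abel
  rw [h1, Set.image_add_right, measure_preimage_add_right, Measure.addHaar_smul]
  congr 2
  rw [finrank_euclideanSpace_fin, abs_of_pos (pow_pos hr 3)]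

theorem M1e_Ahat_hom (c : E3) {r : ℝ} (hr : 0 < r) (K : Set E3) (w : E3) :
    Ahat (hom c r '' K) (r • w) = r ^ 3 * Ahat K w := by
  unfold Ahat
  rw [M1e_image_add_segment, M1e_volume_hom c hr, M1e_volume_hom c hr, ENNReal.toReal_mul,
    ENNReal.toReal_mul, ENNReal.toReal_ofReal (pow_pos hr 3).le]
  ring

end Vale.Agent.Lib.P243.R3.H46
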