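import Mathlib
import Vale.Agent.Lib.P243.R3.Defs
import Vale.Agent.Lib.P243.R3.Defs4
open Set

/-!
# P243, `r_3 > 1/3`, job J19 (copy by helper46): three segments meeting every star chord
-/

namespace Vale.Agent.Lib.P243.R3.H46

/-- J19. Three segments meeting every star chord, from J16 to J18 as hypotheses. -/
theorem M4e_hitting_of {K : Set E3} (hK : Body K)
    (hfacet : ∀ (f : E3 →L[ℝ] ℝ) (M : ℝ), Facet K f M → ∀ p q : E3, Star K p q →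
      f p = M ∨ f q = M)
    (hthree : ∀ p1 q1 p2 q2 : E3, Star K p1 q1 → Star K p2 q2 →
      p1 ≠ p2 ∧ p1 ≠ q2 ∧ q1 ≠ p2 ∧ q1 ≠ q2 →
      ∃ (f1 f2 f3 : E3 →L[ℝ] ℝ) (M1 M2 M3 : ℝ), Facet K f1 M1 ∧ Facet K f2 M2 ∧
        Facet K f3 M3 ∧ (∃ y, f2 y = M2 ∧ f1 y ≠ M1) ∧ (∃ y, f3 y = M3 ∧ f1 y ≠ M1 ∧ f2 y ≠ M2))
    (hseg : ∀ f1 f2 : E3 →L[ℝ] ℝ, f2 ≠ 0 → ∀ M1 M2 : ℝ, (∃ y, f2 y = M2 ∧ f1 y ≠ M1) →
      ∀ R : ℝ, ∃ α β : E3, ∀ y : E3, ‖y‖ ≤ R → f1 y = M1 → f2 y = M2 → y ∈ segment ℝ α β) :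
    ∃ α β : Fin 3 → E3, ∀ p q : E3, Star K p q →
      (p ∈ ⋃ j, segment ℝ (α j) (β j)) ∨ (q ∈ ⋃ j, segment ℝ (α j) (β j)) := by
  by_cases hA : ∃ (f1 f2 f3 : E3 →L[ℝ] ℝ) (M1 M2 M3 : ℝ), Facet K f1 M1 ∧ Facet K f2 M2 ∧
      Facet K f3 M3 ∧ (∃ y, f2 y = M2 ∧ f1 y ≠ M1) ∧ (∃ y, f3 y = M3 ∧ f1 y ≠ M1 ∧ f2 y ≠ M2)
  · -- three facets in pairwise distinct planes
    obtain ⟨f1, f2, f3, M1, M2, M3, hF1, hF2, hF3, h12, y3, hy3, hy31, hy32⟩ := hA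
    obtain ⟨R, hR⟩ := hK.compact.isBounded.exists_norm_le
    obtain ⟨α0, β0, h0⟩ := hseg f1 f2 hF2.1 M1 M2 h12 R
    obtain ⟨α1, β1, h1⟩ := hseg f1 f3 hF3.1 M1 M3 ⟨y3, hy3, hy31⟩ R
    obtain ⟨α2, β2, h2⟩ := hseg f2 f3 hF3.1 M2 M3 ⟨y3, hy3, hy32⟩ R
    refine ⟨![α0, α1, α2], ![β0, β1, β2], ?_⟩
    intro p q hpq
    have hp : p ∈ K := hpq.1
    have hq : q ∈ K := hpq.2.1
    have m0 : ∀ y ∈ K, f1 y = M1 → f2 y = M2 →
        y ∈ ⋃ j, segment ℝ ((![α0, α1, α2] : Fin 3 → E3) j) ((![β0, β1, β2] : Fin 3 → E3) j) :=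
      fun y hy a b => mem_iUnion.mpr ⟨0, h0 y (hR y hy) a b⟩
    have m1 : ∀ y ∈ K, f1 y = M1 → f3 y = M3 →
        y ∈ ⋃ j, segment ℝ ((![α0, α1, α2] : Fin 3 → E3) j) ((![β0, β1, β2] : Fin 3 → E3) j) :=
      fun y hy a b => mem_iUnion.mpr ⟨1, h1 y (hR y hy) a b⟩
    have m2 : ∀ y ∈ K, f2 y = M2 → f3 y = M3 →
        y ∈ ⋃ j, segment ℝ ((![α0, α1, α2] : Fin 3 → E3) j) ((![β0, β1, β2] : Fin 3 → E3) j) :=
      fun y hy a b => mem_iUnion.mpr ⟨2, h2 y (hR y hy) a b⟩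
    rcases hfacet f1 M1 hF1 p q hpq with a | a
    · rcases hfacet f2 M2 hF2 p q hpq with b | b
      · exact Or.inl (m0 p hp a b)
      · rcases hfacet f3 M3 hF3 p q hpq with c | c
        · exact Or.inl (m1 p hp a c)
        · exact Or.inr (m2 q hq b c)
    · rcases hfacet f2 M2 hF2 p q hpq with b | b
      · rcases hfacet f3 M3 hF3 p q hpq with c | c
        · exact Or.inl (m2 p hp b c)
        · exact Or.inr (m1 q hq a c)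
      · exact Or.inr (m0 q hq a b)
  · -- no such three facets: all star chords share an endpoint with a fixed one
    by_cases hS : ∃ p0 q0 : E3, Star K p0 q0
    · obtain ⟨p0, q0, h0⟩ := hS
      refine ⟨![p0, q0, p0], ![p0, q0, p0], ?_⟩
      intro p q hpq
      have mp0 : p0 ∈ ⋃ j, segment ℝ ((![p0, q0, p0] : Fin 3 → E3) j)
          ((![p0, q0, p0] : Fin 3 → E3) j) :=
        mem_iUnion.mpr ⟨0, left_mem_segment ℝ p0 p0⟩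
      have mq0 : q0 ∈ ⋃ j, segment ℝ ((![p0, q0, p0] : Fin 3 → E3) j)
          ((![p0, q0, p0] : Fin 3 → E3) j) :=
        mem_iUnion.mpr ⟨1, left_mem_segment ℝ q0 q0⟩
      by_contra hcon
      rw [not_or] at hcon
      obtain ⟨hcp, hcq⟩ := hcon
      have d1 : p0 ≠ p := fun h => hcp (h ▸ mp0)
      have d2 : p0 ≠ q := fun h => hcq (h ▸ mp0)
      have d3 : q0 ≠ p := fun h => hcp (h ▸ mq0)
      have d4 : q0 ≠ q := fun h => hcq (h ▸ mq0)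
      exact hA (hthree p0 q0 p q h0 hpq ⟨d1, d2, d3, d4⟩)
    · refine ⟨fun _ => 0, fun _ => 0, ?_⟩
      intro p q hpq
      exact absurd ⟨p, q, hpq⟩ hS

end Vale.Agent.Lib.P243.R3.H46
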